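import Vale.Agent.P007A.Defs
import Vale.Agent.P016.Cnt

/-! Prime ideals of degree one carry the smoothed Chebyshev function. -/

namespace Vale.Agent.P007A

open Vale.Agent.P007 Matrix MeasureTheory Filter Topology NumberField
open scoped ENNReal nonZeroDivisors Classical

section Aux

open Vale.Agent.P016 IsDedekindDomain

variable {F : Type} [Field F] [NumberField F]

theorem psiA_card {p : ℕ} (hp : p.Prime) (s : Finset (PP F))
    (hs : ∀ P ∈ s, (p : 𝓞 F) ∈ P.asIdeal) : s.card ≤ Module.finrank ℚ F := by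
  have h1 : ∏ P ∈ s, P.asIdeal ∣ Ideal.span {(p : 𝓞 F)} :=
    Finset.prod_dvd_of_coprime
      (fun P _ Q _ h => Ideal.isCoprime_iff_sup_eq.2
        (P.isMaximal.coprime_of_ne Q.isMaximal fun e => h (HeightOneSpectrum.ext e)))
      fun P hP => Ideal.dvd_span_singleton.2 (hs P hP)
  have h2 := map_dvd Ideal.absNorm h1
  rw [map_prod, Ideal.absNorm_span_natCast, RingOfIntegers.rank] at h2
  have h3 : p ^ s.card ∣ ∏ P ∈ s, Ideal.absNorm P.asIdeal := by
    rw [← Finset.prod_const]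
    refine Finset.prod_dvd_prod_of_dvd _ _ fun P hP => ?_
    have h4 : Ideal.absNorm P.asIdeal ∣ p ^ Module.finrank ℚ F :=
      (Finset.dvd_prod_of_mem _ hP).trans h2
    obtain ⟨k, -, hk⟩ := (Nat.dvd_prime_pow hp).1 h4
    rcases k with _ | k
    · exact absurd (Ideal.absNorm_eq_one_iff.1 (hk.trans (pow_zero _))) P.isPrime.ne_top
    · rw [hk]
      exact dvd_pow_self _ k.succ_ne_zero
  exact (Nat.pow_dvd_pow_iff_le_right hp.one_lt).1 (h3.trans h2)

theorem psiA_norm_ker {p : ℕ} (φ : 𝓞 F →+* ZMod p) : Ideal.absNorm (RingHom.ker φ) = p := by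
  rw [Ideal.absNorm_apply, Submodule.cardQuot_apply,
    Nat.card_congr (RingHom.quotientKerEquivOfSurjective (ZMod.ringHom_surjective φ)).toEquiv,
    Nat.card_zmod]

theorem psiA_aF {p : ℕ} (hp : p.Prime) :
    aF F p = Nat.card {P : PP F // Ideal.absNorm P.asIdeal = p} := by
  have := Fact.mk hp
  refine Nat.card_eq_of_bijective (fun φ => ⟨⟨RingHom.ker φ, RingHom.ker_isPrime φ, fun h =>
    hp.ne_zero ((psiA_norm_ker φ).symm.trans (Ideal.absNorm_eq_zero_iff.2 h))⟩,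
      psiA_norm_ker φ⟩) ⟨fun φ ψ h => ZMod.ringHom_eq_of_ker_eq φ ψ ?_, ?_⟩
  · exact congrArg (fun P => P.1.asIdeal) h
  · rintro ⟨P, hP⟩
    have h1 : Nat.card (𝓞 F ⧸ P.asIdeal) = p := by
      rw [← hP, Ideal.absNorm_apply, Submodule.cardQuot_apply]
    have : Finite (𝓞 F ⧸ P.asIdeal) := Nat.finite_of_card_ne_zero (h1 ▸ hp.ne_zero)
    have := Fintype.ofFinite (𝓞 F ⧸ P.asIdeal)
    let e := (ZMod.ringEquivOfPrime (𝓞 F ⧸ P.asIdeal) hp
      (Nat.card_eq_fintype_card.symm.trans h1)).symm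
    refine ⟨e.toRingHom.comp (Ideal.Quotient.mk _), Subtype.ext (HeightOneSpectrum.ext ?_)⟩
    ext x
    simp [RingHom.mem_ker, Ideal.Quotient.eq_zero_iff_mem]

theorem psiA_under (P : PP F) : ∃ f, 0 < f ∧ (Ideal.absNorm P.asIdeal).minFac.Prime ∧
    ((Ideal.absNorm P.asIdeal).minFac : 𝓞 F) ∈ P.asIdeal ∧
    Ideal.absNorm P.asIdeal = (Ideal.absNorm P.asIdeal).minFac ^ f := by
  have := P.isMaximal
  obtain ⟨p, f, hf, h1, h2, h3⟩ := Ideal.exists_prime_and_absNorm_eq_pow P.asIdeal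
  have h4 : (Ideal.absNorm P.asIdeal).minFac = p := by
    rw [h3, h2.pow_minFac hf.ne']
  exact ⟨f, hf, h4 ▸ h2, h4 ▸ h1, h4 ▸ h3⟩

theorem psiA_fib {b : ℕ × ℕ → ℝ} (hb0 : ∀ x, 0 ≤ b x) (hb : Summable b) (u : Finset (PP F × ℕ)) :
    ∑ y ∈ u, b ((Ideal.absNorm y.1.asIdeal).minFac, y.2) ≤ Module.finrank ℚ F * ∑' x, b x := by
  set g : PP F × ℕ → ℕ × ℕ := fun y => ((Ideal.absNorm y.1.asIdeal).minFac, y.2) with hg
  rw [← Finset.sum_fiberwise_of_maps_to (t := u.image g) (g := g)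
    fun y hy => Finset.mem_image_of_mem _ hy]
  refine le_trans ?_ (mul_le_mul_of_nonneg_left (hb.sum_le_tsum (u.image g) fun x _ => hb0 x)
    (Nat.cast_nonneg _))
  rw [Finset.mul_sum]
  refine Finset.sum_le_sum fun x hx => ?_
  obtain ⟨y₀, -, rfl⟩ := Finset.mem_image.1 hx
  rw [Finset.sum_congr rfl fun y hy => congrArg b (Finset.mem_filter.1 hy).2, Finset.sum_const,
    nsmul_eq_mul]
  refine mul_le_mul_of_nonneg_right (Nat.cast_le.2 ?_) (hb0 _)
  obtain ⟨-, -, h1, -⟩ := psiA_under y₀.1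
  have hinj : Set.InjOn Prod.fst ((u.filter fun y => g y = g y₀ : Finset _) : Set (PP F × ℕ)) :=
    fun y hy y' hy' e => Prod.ext e
      ((congrArg Prod.snd (Finset.mem_filter.1 hy).2).trans
        (congrArg Prod.snd (Finset.mem_filter.1 hy').2).symm)
  rw [← Finset.card_image_of_injOn hinj]
  refine psiA_card h1 _ fun P hP => ?_
  obtain ⟨y, hy, rfl⟩ := Finset.mem_image.1 hP
  obtain ⟨-, -, -, h2, -⟩ := psiA_under y.1
  have h3 : (Ideal.absNorm y.1.asIdeal).minFac = (Ideal.absNorm y₀.1.asIdeal).minFac :=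
    congrArg Prod.fst (Finset.mem_filter.1 hy).2
  exact h3 ▸ h2

theorem psiA_term {p f k : ℕ} (hp : 2 ≤ p) (hf : 0 < f) (h : 2 ≤ f * (k + 1)) {z : ℝ}
    (hz : 0 < z) : Real.log ((p : ℝ) ^ f) * P026.w (((p : ℝ) ^ f) ^ (k + 1) / z) ≤
      60 * z ^ (2 / 3 : ℝ) * ((p : ℝ) ^ (-(6 / 5) : ℝ) * ((2 : ℝ) ^ (-(3 / 5) : ℝ)) ^ k) := by
  have hp2 : (2 : ℝ) ≤ p := by exact_mod_cast hp
  have hp0 : (0 : ℝ) < p := by linarith
  obtain ⟨j, hj⟩ := Nat.exists_eq_add_of_le h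
  have hkj : k ≤ j + 1 := by nlinarith
  set q : ℝ := ((p : ℝ) ^ f) ^ (k + 1) with hq
  have hq0 : 0 < q := by positivity
  have h1 : (1 : ℝ) ≤ (p : ℝ) ^ f := one_le_pow₀ (by linarith)
  have h2 : Real.log ((p : ℝ) ^ f) ≤ 15 * q ^ (1 / 15 : ℝ) := by
    refine (Real.log_le_log (by positivity) (le_self_pow₀ h1 k.succ_ne_zero)).trans ?_
    refine (Real.log_le_rpow_div hq0.le (by norm_num : (0 : ℝ) < 1 / 15)).trans (le_of_eq ?_)
    ring
  have h3 := P026.w_le_rpow (-(2 / 3)) (div_pos hq0 hz)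
  rw [Real.div_rpow hq0.le hz.le, Real.rpow_neg hz.le, div_inv_eq_mul] at h3
  have h4 : Real.exp ((-(2 / 3 : ℝ)) ^ 2 / 4) ≤ 2 := by
    refine (Real.exp_le_exp.2 (by norm_num : _ ≤ (0.6 : ℝ))).trans ?_
    rw [← Real.le_log_iff_exp_le two_pos]
    linarith [Real.log_two_gt_d9]
  have h5 : q ^ (1 / 15 : ℝ) * q ^ (-(2 / 3) : ℝ) = q ^ (-(3 / 5) : ℝ) := by
    rw [← Real.rpow_add hq0]
    norm_num
  set r : ℝ := (2 : ℝ) ^ (-(3 / 5) : ℝ) with hr
  have hr0 : 0 < r := by positivity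
  have hr1 : r ≤ 1 := Real.rpow_le_one_of_one_le_of_nonpos one_le_two (by norm_num)
  have hr2 : 1 ≤ 2 * r := by
    have := Real.rpow_le_rpow_of_exponent_le (one_le_two (α := ℝ))
      (by norm_num : (-1 : ℝ) ≤ -(3 / 5))
    rw [Real.rpow_neg_one] at this
    linarith
  have h6 : q ^ (-(3 / 5) : ℝ) ≤ 2 * ((p : ℝ) ^ (-(6 / 5) : ℝ) * r ^ k) := by
    have e1 : q ^ (-(3 / 5) : ℝ) = (p : ℝ) ^ (-(6 / 5) : ℝ) * ((p : ℝ) ^ (-(3 / 5) : ℝ)) ^ j := by
      rw [hq, ← pow_mul, hj, ← Real.rpow_natCast, ← Real.rpow_mul hp0.le, ← Real.rpow_natCast,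
        ← Real.rpow_mul hp0.le, ← Real.rpow_add hp0]
      push_cast
      exact congrArg _ (by ring)
    have e2 : ((p : ℝ) ^ (-(3 / 5) : ℝ)) ^ j ≤ r ^ j :=
      pow_le_pow_left₀ (by positivity)
        (Real.rpow_le_rpow_of_nonpos two_pos hp2 (by norm_num)) j
    have e3 : r ^ (j + 1) ≤ r ^ k := pow_le_pow_of_le_one hr0.le hr1 hkj
    have e4 : r ^ j ≤ 2 * r ^ k := by
      rw [pow_succ] at e3
      nlinarith [pow_pos hr0 j]
    rw [e1, mul_left_comm]
    exact mul_le_mul_of_nonneg_left (e2.trans e4) (by positivity)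
  calc _ ≤ 15 * q ^ (1 / 15 : ℝ) * (2 * (q ^ (-(2 / 3) : ℝ) * z ^ (2 / 3 : ℝ))) :=
        mul_le_mul h2 (h3.trans (mul_le_mul_of_nonneg_right h4 (by positivity)))
          (P026.w_pos _).le (by positivity)
    _ = 30 * z ^ (2 / 3 : ℝ) * q ^ (-(3 / 5) : ℝ) := by rw [← h5]; ring
    _ ≤ 30 * z ^ (2 / 3 : ℝ) * (2 * ((p : ℝ) ^ (-(6 / 5) : ℝ) * r ^ k)) :=
        mul_le_mul_of_nonneg_left h6 (by positivity)
    _ = _ := by ring

theorem psiA_main {z : ℝ} {g : PP F × ℕ → ℝ} (hg : Summable g)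
    (e : ∀ y, g y = if y.2 = 0 ∧ (Ideal.absNorm y.1.asIdeal).Prime then
      Real.log (nm y.1.asIdeal) * P026.w (nm y.1.asIdeal ^ (y.2 + 1) / z) else 0) :
    ∑' y, g y = psm (fun p => aF F p) z := by
  have hi : Function.Injective fun P : PP F => (P, 0) := fun _ _ h => congrArg Prod.fst h
  have h1 : HasSum (fun P : PP F => g (P, 0)) (∑' y, g y) := by
    refine (hi.hasSum_iff fun y hy => ?_).2 hg.hasSum
    rw [e, if_neg]
    exact fun h => hy ⟨y.1, Prod.ext rfl h.1.symm⟩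
  rw [← (h1.tsum_fiberwise fun P => Ideal.absNorm P.asIdeal).tsum_eq]
  refine tsum_congr fun p => ?_
  have h2 : ∀ P : ((fun P : PP F => Ideal.absNorm P.asIdeal) ⁻¹' {p} : Set (PP F)),
      g (P, 0) = if p.Prime then Real.log p * gw (p / z) else 0 := by
    rintro ⟨P, hP⟩
    have h3 : Ideal.absNorm P.asIdeal = p := hP
    rw [e]
    simp only [true_and, zero_add, pow_one, nm, h3]
    rfl
  rw [tsum_congr h2, tsum_const, nsmul_eq_mul]
  split_ifs with hp
  · simp only [psiA_aF hp, mul_assoc]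
    rfl
  · exact mul_zero _

end Aux

theorem aF_le (F : Type) [Field F] [NumberField F] {p : ℕ} (hp : p.Prime) :
    aF F p ≤ Module.finrank ℚ F := by
  have h1 : ∀ P : P016.PP F, Ideal.absNorm P.asIdeal = p → (p : 𝓞 F) ∈ P.asIdeal :=
    fun P h => h ▸ Ideal.absNorm_mem _
  have h2 : {P : P016.PP F | Ideal.absNorm P.asIdeal = p}.Finite :=
    (P016.finite_bad hp.ne_zero).subset h1
  rw [psiA_aF hp]
  refine le_of_eq_of_le ?_ (psiA_card hp h2.toFinset fun P hP => h1 P (h2.mem_toFinset.1 hP))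
  exact Set.ncard_eq_toFinset_card _ h2
theorem summable_psm {a : ℕ → ℝ} {N : ℝ} (ha : ∀ p : ℕ, p.Prime → |a p| ≤ N) {z : ℝ}
    (hz : 0 < z) :
    Summable fun p : ℕ => if p.Prime then a p * Real.log p * gw (p / z) else 0 := by
  have hN : 0 ≤ N := (abs_nonneg _).trans (ha 2 Nat.prime_two)
  refine Summable.of_norm_bounded ((Real.summable_nat_rpow.2 (by norm_num : (-2 : ℝ) < -1)).mul_left
    (N * (Real.exp ((-3) ^ 2 / 4) * z ^ (3 : ℝ)))) fun p => ?_
  split_ifs with hp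
  · have hp0 : (0 : ℝ) < p := by exact_mod_cast hp.pos
    have h1 := P026.w_le_rpow (-3) (div_pos hp0 hz)
    rw [Real.div_rpow hp0.le hz.le, Real.rpow_neg hz.le, div_inv_eq_mul] at h1
    have h2 : (p : ℝ) ^ (-2 : ℝ) = p * (p : ℝ) ^ (-3 : ℝ) := by
      rw [show (-2 : ℝ) = 1 + -3 by norm_num, Real.rpow_add hp0, Real.rpow_one]
    have h3 : 0 ≤ gw (p / z) := (Real.exp_pos _).le
    rw [Real.norm_eq_abs, abs_mul, abs_mul, abs_of_nonneg h3,
      abs_of_nonneg (Real.log_natCast_nonneg p), h2]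
    refine (mul_le_mul (mul_le_mul (ha p hp) (Real.log_le_self hp0.le)
      (Real.log_natCast_nonneg p) hN) h1 h3 (by positivity)).trans (le_of_eq ?_)
    ring
  · rw [norm_zero]
    positivity
theorem psi_close : ∃ C : ℝ, 0 < C ∧ ∀ (F : Type) [Field F] [NumberField F] (z : ℝ), 1 ≤ z →
    |P016.Psi F z - psm (fun p => aF F p) z| ≤ C * Module.finrank ℚ F * z ^ (2 / 3 : ℝ) := by
  set b : ℕ × ℕ → ℝ := fun x => (x.1 : ℝ) ^ (-(6 / 5) : ℝ) * ((2 : ℝ) ^ (-(3 / 5) : ℝ)) ^ x.2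
    with hb
  have hb0 : ∀ x, 0 ≤ b x := fun x => by positivity
  have hbs : Summable b :=
    (Real.summable_nat_rpow.2 (by norm_num : (-(6 / 5) : ℝ) < -1)).mul_of_nonneg
      (summable_geometric_of_lt_one (by positivity)
        (Real.rpow_lt_one_of_one_lt_of_neg one_lt_two (by norm_num)))
      (fun _ => by positivity) fun _ => by positivity
  have hS : 0 ≤ ∑' x, b x := tsum_nonneg hb0
  refine ⟨60 * (∑' x, b x) + 1, by positivity, fun F _ _ z hz => ?_⟩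
  have hz0 : 0 < z := by linarith
  set t : P016.PP F × ℕ → ℝ := fun y =>
    Real.log (P016.nm y.1.asIdeal) * P026.w (P016.nm y.1.asIdeal ^ (y.2 + 1) / z) with ht
  have hts : Summable t := P016.summable_Psi hz0
  have ht0 : ∀ y, 0 ≤ t y := fun y =>
    mul_nonneg (Real.log_natCast_nonneg _) (P026.w_pos _).le
  set g : P016.PP F × ℕ → ℝ := fun y =>
    if y.2 = 0 ∧ (Ideal.absNorm y.1.asIdeal).Prime then t y else 0 with hg
  have hg0 : ∀ y, 0 ≤ g y := fun y => by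
    simp only [hg]
    split_ifs
    exacts [ht0 y, le_rfl]
  have hgt : ∀ y, g y ≤ t y := fun y => by
    simp only [hg]
    split_ifs
    exacts [le_rfl, ht0 y]
  have hgs : Summable g := Summable.of_nonneg_of_le hg0 hgt hts
  have hd : ∀ y, t y - g y ≤
      60 * z ^ (2 / 3 : ℝ) * b ((Ideal.absNorm y.1.asIdeal).minFac, y.2) := fun y => by
    simp only [hg]
    split_ifs with h
    · rw [sub_self]
      exact mul_nonneg (by positivity) (hb0 _)
    · obtain ⟨f, hf, h1, -, h2⟩ := psiA_under y.1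
      have h3 : P016.nm y.1.asIdeal = ((Ideal.absNorm y.1.asIdeal).minFac : ℝ) ^ f := by
        rw [← Nat.cast_pow, ← h2]
        rfl
      rw [sub_zero, ht]
      simp only [h3]
      refine psiA_term h1.two_le hf ?_ hz0
      by_contra h4
      have h5 : f = 1 := by nlinarith
      have h6 : y.2 = 0 := by nlinarith
      refine h ⟨h6, ?_⟩
      rw [h2, h5, pow_one]
      exact h1
  rw [← psiA_main hgs fun _ => rfl]
  show |∑' y, t y - ∑' y, g y| ≤ _
  rw [← hts.tsum_sub hgs, abs_of_nonneg (tsum_nonneg fun y => sub_nonneg.2 (hgt y))]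
  refine Real.tsum_le_of_sum_le (fun y => sub_nonneg.2 (hgt y)) fun u => ?_
  refine (Finset.sum_le_sum fun y _ => hd y).trans ?_
  rw [← Finset.mul_sum]
  refine (mul_le_mul_of_nonneg_left (psiA_fib hb0 hbs u) (by positivity)).trans ?_
  have : 0 ≤ (Module.finrank ℚ F : ℝ) * z ^ (2 / 3 : ℝ) := by positivity
  nlinarith

end Vale.Agent.P007A
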