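import Vale.Agent.P007A.Quad
import Vale.Agent.P007A.PsiA

/-! A lower bound for prime ideals of real fields of odd degree. -/

namespace Vale.Agent.P007A

open Vale.Agent.P007 Matrix MeasureTheory Filter Topology NumberField
open scoped ENNReal nonZeroDivisors Classical

theorem cs_pos {W : ℕ → ℝ} (hW : ∀ p, 0 ≤ W p) (hs : Summable W) {S : Finset ℕ} (hS : S.Nonempty)
    {f : ℕ → ℕ → ℝ} (hf : ∀ i p, 0 ≤ f i p ∧ f i p ≤ 2) {c E : ℝ} (hE : 0 ≤ E)
    (h1 : ∀ i ∈ S, |∑' p, W p * f i p - c| ≤ E)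
    (h2 : ∀ i ∈ S, ∀ j ∈ S, i ≠ j → ∑' p, W p * (f i p * f j p) ≤ c + E) :
    c - c / S.card - 4 * E ≤ ∑' p, W p := by
  have hb : ∀ g : ℕ → ℝ, (∀ p, 0 ≤ g p ∧ g p ≤ 4) → Summable fun p => W p * g p := fun g hg =>
    Summable.of_nonneg_of_le (fun p => mul_nonneg (hW p) (hg p).1)
      (fun p => mul_le_mul_of_nonneg_left (hg p).2 (hW p)) (hs.mul_right 4)
  obtain ⟨g, hg⟩ : ∃ g : ℕ → ℕ → ℕ → ℝ,
    g = fun i j p => if i = j then 2 * f i p else f i p * f j p := ⟨_, rfl⟩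
  have hg1 : ∀ i j p, (0 ≤ g i j p ∧ g i j p ≤ 4) ∧ f i p * f j p ≤ g i j p := fun i j p => by
    have := hf i p
    have := hf j p
    simp only [hg]
    split_ifs with h
    · subst h
      refine ⟨⟨by linarith, by linarith⟩, by nlinarith⟩
    · refine ⟨⟨by nlinarith, by nlinarith⟩, le_rfl⟩
  have hf1 : ∀ i, Summable fun p => W p * f i p := fun i =>
    hb _ fun p => ⟨(hf i p).1, by linarith [(hf i p).2]⟩
  have hk : (1 : ℝ) ≤ S.card := by exact_mod_cast hS.card_pos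
  have h3 : HasSum (fun p => 2 * S.card * ∑ i ∈ S, W p * f i p)
      (2 * S.card * ∑ i ∈ S, ∑' p, W p * f i p) :=
    (hasSum_sum fun i _ => (hf1 i).hasSum).mul_left _
  have h4 : HasSum (fun p => (S.card : ℝ) ^ 2 * W p + ∑ i ∈ S, ∑ j ∈ S, W p * g i j p)
      ((S.card : ℝ) ^ 2 * ∑' p, W p + ∑ i ∈ S, ∑ j ∈ S, ∑' p, W p * g i j p) :=
    (hs.hasSum.mul_left _).add
      (hasSum_sum fun i _ => hasSum_sum fun j _ => (hb _ fun p => (hg1 i j p).1).hasSum)
  have h5 := hasSum_le (fun p => ?_) h3 h4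
  · have h6 : ∑ i ∈ S, ∑ j ∈ S, ∑' p, W p * g i j p
        ≤ ∑ i ∈ S, ∑ j ∈ S, ((c + E) + if i = j then c + E else 0) := by
      refine Finset.sum_le_sum fun i hi => Finset.sum_le_sum fun j hj => ?_
      simp only [hg]
      split_ifs with h
      · simp only [mul_left_comm _ (2 : ℝ), tsum_mul_left]
        linarith [(abs_le.1 (h1 i hi)).2]
      · linarith [h2 i hi j hj h]
    have h7 : ∑ i ∈ S, ∑ j ∈ S, ((c + E) + if i = j then c + E else 0)
        = S.card * (S.card * (c + E) + (c + E)) := by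
      rw [Finset.sum_congr rfl fun i hi => by
        rw [Finset.sum_add_distrib, Finset.sum_ite_eq, if_pos hi, Finset.sum_const, nsmul_eq_mul],
        Finset.sum_const, nsmul_eq_mul]
    have h8 : S.card * (c - E) ≤ ∑ i ∈ S, ∑' p, W p * f i p := by
      rw [← nsmul_eq_mul, ← Finset.sum_const]
      exact Finset.sum_le_sum fun i hi => by linarith [(abs_le.1 (h1 i hi)).1]
    obtain ⟨k, hk'⟩ : ∃ k : ℝ, k = S.card := ⟨_, rfl⟩
    rw [← hk'] at h5 h7 h8 hk ⊢
    have h9 : c / k * k = c := div_mul_cancel₀ _ (by linarith)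
    refine le_of_mul_le_mul_left ?_ (by positivity : 0 < k ^ 2)
    have h10 := mul_le_mul_of_nonneg_left h8 (by linarith : 0 ≤ 2 * k)
    have h11 : k * E ≤ k ^ 2 * E := mul_le_mul_of_nonneg_right (by nlinarith) hE
    have h12 : k ^ 2 * (c / k) = k * c := by rw [sq, mul_assoc, mul_comm k (c / k), h9]
    nlinarith
  · have h6 : (∑ i ∈ S, f i p) * ∑ j ∈ S, f j p ≤ ∑ i ∈ S, ∑ j ∈ S, g i j p := by
      rw [Finset.sum_mul_sum]
      exact Finset.sum_le_sum fun i _ => Finset.sum_le_sum fun j _ => (hg1 i j p).2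
    simp only [← Finset.mul_sum]
    have h7 : 2 * S.card * ∑ i ∈ S, f i p ≤ (S.card : ℝ) ^ 2 + ∑ i ∈ S, ∑ j ∈ S, g i j p := by
      nlinarith [sq_nonneg (∑ i ∈ S, f i p - S.card)]
    nlinarith [mul_le_mul_of_nonneg_left h7 (hW p)]

theorem cs_primes (k : ℕ) : ∃ S : Finset ℕ, S.card = k ∧ ∀ p ∈ S, p.Prime ∧ p ≤ 2 ^ k := by
  induction k with
  | zero => exact ⟨∅, rfl, by simp⟩
  | succ k ih =>
    obtain ⟨S, h1, h2⟩ := ih
    obtain ⟨p, hp, h3, h4⟩ := Nat.exists_prime_lt_and_le_two_mul (2 ^ k) (by positivity)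
    refine ⟨insert p S, ?_, fun q hq => ?_⟩
    · rw [Finset.card_insert_of_notMem fun h => absurd (h2 p h).2 (by omega), h1]
    · rcases Finset.mem_insert.1 hq with rfl | hq
      · exact ⟨hp, by omega⟩
      · exact ⟨(h2 q hq).1, by have := (h2 q hq).2; omega⟩

theorem cs_small {θ : ℝ} (hθ : θ < 1) : ∃ C : ℝ, 0 ≤ C ∧ ∀ z : ℝ, 3 ≤ z →
    Real.log z ^ 6 * z ^ θ ≤ C * z / Real.log z := by
  have hε : 0 < (1 - θ) / 7 := by linarith
  refine ⟨(((1 - θ) / 7) ^ 7)⁻¹, by positivity, fun z hz => ?_⟩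
  have h0 : 0 < Real.log z := Real.log_pos (by linarith)
  have hz0 : 0 < z := by linarith
  have h1 := pow_le_pow_left₀ h0.le (Real.log_le_rpow_div hz0.le hε) 7
  rw [div_pow, ← Real.rpow_natCast (z ^ _), ← Real.rpow_mul hz0.le] at h1
  have h2 : z ^ ((1 - θ) / 7 * (7 : ℕ)) * z ^ θ = z := by
    rw [← Real.rpow_add hz0]
    conv_rhs => rw [← Real.rpow_one z]
    congr 1
    push_cast
    ring
  rw [le_div_iff₀ h0]
  calc Real.log z ^ 6 * z ^ θ * Real.log z = Real.log z ^ 7 * z ^ θ := by ring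
    _ ≤ z ^ ((1 - θ) / 7 * (7 : ℕ)) / ((1 - θ) / 7) ^ 7 * z ^ θ :=
      mul_le_mul_of_nonneg_right h1 (by positivity)
    _ = _ := by rw [div_mul_eq_mul_div, h2, div_eq_inv_mul]

theorem cs_om {E : Type} [Field E] {θ : E} {a : ℕ} (ha : 0 < a) (h : θ ^ 2 = ((-a : ℤ) : E)) :
    Nonempty (P016.Om E) := by
  refine ⟨⟨θ, fun φ h0 => ?_⟩⟩
  have h1 := congrArg (fun w => (φ w).re) h
  simp only [map_intCast, sq, map_mul, Complex.mul_re, h0, Complex.intCast_re] at h1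
  have h2 : (0 : ℝ) < a := by exact_mod_cast ha
  push_cast at h1
  nlinarith [mul_self_nonneg (φ θ).re]

theorem cs_nsq {K : Type} [Field K] (τ : K →+* ℝ) {a : ℕ} (ha : 0 < a) :
    ¬ IsSquare ((-a : ℤ) : K) := by
  rintro ⟨u, hu⟩
  have h1 := congrArg τ hu
  rw [map_intCast, map_mul] at h1
  have h2 : (0 : ℝ) < a := by exact_mod_cast ha
  push_cast at h1
  nlinarith [mul_self_nonneg (τ u)]

theorem cs_nsq_odd {K : Type} [Field K] [NumberField K] (hn : Odd (Module.finrank ℚ K)) {a b : ℕ}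
    (ha : a.Prime) (hb : b.Prime) (hab : a ≠ b) : ¬ IsSquare ((a * b : ℕ) : K) := by
  rintro ⟨y, hy⟩
  obtain ⟨t, ht⟩ := hn
  have h1 := congrArg (Algebra.norm ℚ) hy
  rw [map_mul, ← map_natCast (algebraMap ℚ K), Algebra.norm_algebraMap, ht] at h1
  have h0 : ((a * b : ℕ) : ℚ) ≠ 0 := Nat.cast_ne_zero.2 (mul_ne_zero ha.ne_zero hb.ne_zero)
  have h2 : IsSquare ((a * b : ℕ) : ℚ) := ⟨Algebra.norm ℚ y / ((a * b : ℕ) : ℚ) ^ t, by
    rw [div_mul_div_comm, ← h1, eq_div_iff (by positivity)]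
    ring⟩
  obtain ⟨r, hr⟩ := Rat.isSquare_natCast_iff.1 h2
  obtain ⟨s, rfl⟩ : a ∣ r := (ha.dvd_mul.1 ⟨b, hr.symm⟩).elim id id
  have h3 : b = a * (s * s) := Nat.eq_of_mul_eq_mul_left ha.pos (by rw [hr]; ring)
  exact hab ((Nat.prime_dvd_prime_iff_eq ha hb).1 ⟨_, h3⟩)

theorem cs_nsq₂ {K E : Type} [Field K] [NumberField K] [Field E] (τ : K →+* ℝ)
    (hn : Odd (Module.finrank ℚ K)) (ι : K →+* E) {θ : E} {a b : ℕ} (ha : a.Prime) (hb : b.Prime)
    (hab : a ≠ b) (h : θ ^ 2 = ((-a : ℤ) : E)) (hs : ∀ z : E, ∃ u v : K, z = ι u + ι v * θ) :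
    ¬ IsSquare ((-b : ℤ) : E) := by
  rintro ⟨w, hw⟩
  obtain ⟨u, v, rfl⟩ := hs w
  push_cast at h hw
  have h1 : ι (u * u - a * (v * v) + b) + ι (2 * (u * v)) * θ = 0 := by
    simp only [map_add, map_sub, map_mul, map_natCast, map_ofNat]
    linear_combination -hw - ι v * ι v * h
  have h2 : 2 * (u * v) = 0 := by
    by_contra h2
    refine cs_nsq τ ha.pos ⟨(u * u - a * (v * v) + b) / (2 * (u * v)), ι.injective ?_⟩
    have h3 : ι (2 * (u * v)) ≠ 0 := (map_ne_zero ι).2 h2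
    have h4 : ι ((u * u - a * (v * v) + b) / (2 * (u * v))) = -θ := by
      rw [map_div₀, div_eq_iff h3]
      linear_combination h1
    rw [map_mul, h4, map_intCast]
    push_cast
    linear_combination -h
  rw [h2, map_zero, zero_mul, add_zero, map_eq_zero] at h1
  rcases mul_eq_zero.1 ((mul_eq_zero.1 h2).resolve_left two_ne_zero) with rfl | rfl
  · refine cs_nsq_odd hn ha hb hab ⟨a * v, ?_⟩
    push_cast
    linear_combination (a : K) * h1
  · refine cs_nsq τ hb.pos ⟨u, ?_⟩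
    push_cast
    linear_combination -h1

/-- The weight of a rational prime. -/
noncomputable def csw (z : ℝ) (p : ℕ) : ℝ := if p.Prime then Real.log p * gw (p / z) else 0

theorem csw_nonneg (z : ℝ) (p : ℕ) : 0 ≤ csw z p := by
  unfold csw gw
  split_ifs
  · exact mul_nonneg (Real.log_natCast_nonneg p) (Real.exp_pos _).le
  · exact le_rfl

theorem csw_le (z : ℝ) (p : ℕ) : csw z p ≤ Real.log p := by
  unfold csw gw
  split_ifs
  · exact mul_le_of_le_one_right (Real.log_natCast_nonneg p)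
      (Real.exp_le_one_iff.2 (neg_nonpos.2 (sq_nonneg _)))
  · exact Real.log_natCast_nonneg p

theorem cs_ite (a z : ℝ) (p : ℕ) :
    (if p.Prime then a * Real.log p * gw (p / z) else 0) = a * csw z p := by
  unfold csw
  split_ifs
  · ring
  · simp

theorem cs_summable (F : Type) [Field F] [NumberField F] {z : ℝ} (hz : 0 < z) :
    Summable fun p => (aF F p : ℝ) * csw z p := by
  simpa only [cs_ite] using summable_psm (a := fun p => aF F p) (N := Module.finrank ℚ F)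
    (fun p hp => by rw [Nat.abs_cast]; exact_mod_cast aF_le F hp) hz

theorem cs_field (h : P016.Pit) (N : ℕ) : ∃ C : ℝ, 0 ≤ C ∧ ∀ (F : Type) [Field F] [NumberField F],
    Nonempty (P016.Om F) → ∀ z : ℝ, 3 ≤ z → Module.finrank ℚ F ≤ N →
      ((NumberField.discr F).natAbs : ℝ) ≤ z ^ N → ∀ B : Finset ℕ,
      (∀ p ∈ B, p.Prime ∧ (p : ℝ) ≤ z ^ 2) → (B.card : ℝ) ≤ 3 * Real.log z →
      |∑' p, (if p ∈ B then 0 else aF F p * csw z p) - c1 * z| ≤ C * z / Real.log z := by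
  obtain ⟨θ, C₀, hθ0, hθ1, hC₀, hP⟩ := h
  obtain ⟨C₁, hC₁, hc⟩ := psi_close
  obtain ⟨C₂, hC₂, hs⟩ := cs_small (θ := max θ (2 / 3)) (max_lt hθ1 (by norm_num))
  refine ⟨(C₀ * (2 * N + 1) ^ 6 + C₁ * N + 6 * N) * C₂, by positivity,
    fun F _ _ ⟨hom⟩ z hz hN hd B hB hcard => ?_⟩
  have hz1 : 1 ≤ z := by linarith
  have hl : 1 ≤ Real.log z := by
    rw [Real.le_log_iff_exp_le (by linarith)]
    linarith [Real.exp_one_lt_d9]
  have hN' : (Module.finrank ℚ F : ℝ) ≤ N := by exact_mod_cast hN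
  have hN0 : (0 : ℝ) ≤ N := Nat.cast_nonneg N
  have hd0 : (1 : ℝ) ≤ (NumberField.discr F).natAbs := by
    exact_mod_cast Int.natAbs_pos.2 (NumberField.discr_ne_zero F)
  have h1 : P016.sz F ≤ (2 * N + 1) * Real.log z := by
    have h2 := Real.log_le_log (by linarith) hd
    rw [Real.log_pow] at h2
    unfold P016.sz P016.dg
    nlinarith
  have h2 : 0 ≤ P016.sz F := by
    unfold P016.sz
    have := Real.log_nonneg hd0
    positivity
  obtain ⟨Q, hQ⟩ : ∃ Q, Q = Real.log z ^ 6 * z ^ max θ (2 / 3) := ⟨_, rfl⟩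
  have hz2 : ∀ t ≤ max θ (2 / 3), z ^ t ≤ z ^ max θ (2 / 3) := fun t ht =>
    Real.rpow_le_rpow_of_exponent_le hz1 ht
  have hl6 : 1 ≤ Real.log z ^ 6 := one_le_pow₀ hl
  have h3 : |P016.Psi F z - c1 * z| ≤ C₀ * (2 * N + 1) ^ 6 * Q := by
    refine (hP F z hz1).trans ?_
    rw [hQ, mul_assoc, mul_assoc, ← mul_assoc _ (Real.log z ^ 6), ← mul_pow]
    exact mul_le_mul_of_nonneg_left (mul_le_mul (pow_le_pow_left₀ h2 h1 6) (hz2 _ (le_max_left _ _))
      (by positivity) (by positivity)) hC₀.le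
  have h4 : |P016.Psi F z - psm (fun p => aF F p) z| ≤ C₁ * N * Q := by
    refine (hc F z hz1).trans (mul_le_mul (mul_le_mul_of_nonneg_left hN' hC₁.le) ?_
      (by positivity) (by positivity))
    rw [hQ]
    exact (hz2 _ (le_max_right _ _)).trans (le_mul_of_one_le_left (by positivity) hl6)
  have h5 : psm (fun p => aF F p) z = ∑ p ∈ B, aF F p * csw z p
      + ∑' p, (if p ∈ B then 0 else aF F p * csw z p) := by
    have h6 : HasSum (fun p => if p ∈ B then aF F p * csw z p else 0)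
        (∑ p ∈ B, aF F p * csw z p) := by
      have h7 := hasSum_sum_of_ne_finset_zero (f := fun p => if p ∈ B then aF F p * csw z p else 0)
        (s := B) (L := SummationFilter.unconditional ℕ) fun p hp => if_neg hp
      rwa [Finset.sum_congr rfl fun p hp => if_pos hp] at h7
    have h7 := ((cs_summable F (by linarith : 0 < z)).hasSum.sub h6).tsum_eq
    simp only [psm, cs_ite]
    rw [← sub_eq_iff_eq_add', ← h7]
    refine tsum_congr fun p => ?_
    split_ifs <;> simp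
  have h6 : 0 ≤ ∑ p ∈ B, aF F p * csw z p :=
    Finset.sum_nonneg fun p _ => mul_nonneg (Nat.cast_nonneg _) (csw_nonneg z p)
  have h7 : ∑ p ∈ B, aF F p * csw z p ≤ 6 * N * Q := by
    have h8 : ∑ p ∈ B, aF F p * csw z p ≤ ∑ p ∈ B, N * (2 * Real.log z) := by
      refine Finset.sum_le_sum fun p hp => mul_le_mul ?_ ((csw_le z p).trans ?_) (csw_nonneg z p) hN0
      · exact_mod_cast (aF_le F (hB p hp).1).trans hN
      · have h9 := Real.log_le_log (by exact_mod_cast (hB p hp).1.pos) (hB p hp).2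
        rwa [Real.log_pow, Nat.cast_ofNat] at h9
    rw [Finset.sum_const, nsmul_eq_mul] at h8
    have h9 : Real.log z ^ 2 ≤ Q := by
      rw [hQ]
      exact (pow_le_pow_right₀ hl (by norm_num)).trans
        (le_mul_of_one_le_right (by positivity) (Real.one_le_rpow hz1 (by positivity)))
    have h10 := mul_le_mul_of_nonneg_right hcard (by positivity : 0 ≤ N * (2 * Real.log z))
    nlinarith [mul_le_mul_of_nonneg_left h9 hN0]
  have h8 := mul_le_mul_of_nonneg_left (hs z hz)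
    (by positivity : 0 ≤ C₀ * (2 * N + 1) ^ 6 + C₁ * N + 6 * N)
  rw [← hQ, ← mul_div_assoc, ← mul_assoc] at h8
  refine le_trans ?_ h8
  rw [abs_le] at h3 h4 ⊢
  constructor <;> nlinarith [h3.1, h3.2, h4.1, h4.2]

theorem cs_jac (c : ℤ) (p : ℕ) :
    (0 : ℝ) ≤ 1 + jacobiSym c p ∧ (1 + jacobiSym c p : ℝ) ≤ 2 := by
  rcases jacobiSym.trichotomy c p with h | h | h <;> rw [h] <;> norm_num

theorem cs_mul {F E : Type} [Field F] [Field E] {a : ℕ} (ha : a.Prime) {B : Finset ℕ}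
    (h2 : 2 ∈ B) (haB : a ∈ B) (h : ∀ p : ℕ, p.Prime → ¬ (p : ℤ) ∣ 2 * (-a : ℤ) →
      (aF E p : ℤ) = aF F p * (1 + jacobiSym (-a) p)) (z : ℝ) (p : ℕ) :
    (if p ∈ B then 0 else aF E p * csw z p)
      = (if p ∈ B then 0 else aF F p * csw z p) * (1 + jacobiSym (-a) p) := by
  split_ifs with hB
  · simp
  by_cases hp : p.Prime
  · have h1 := h p hp fun hd => by
      rw [mul_neg, Int.dvd_neg] at hd
      have h3 : p ∣ 2 * a := by exact_mod_cast hd
      rcases hp.dvd_mul.1 h3 with h4 | h4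
      · exact hB ((Nat.prime_dvd_prime_iff_eq hp Nat.prime_two).1 h4 ▸ h2)
      · exact hB ((Nat.prime_dvd_prime_iff_eq hp ha).1 h4 ▸ haB)
    have h3 : (aF E p : ℝ) = aF F p * (1 + jacobiSym (-a) p) := by exact_mod_cast h1
    rw [h3]
    ring
  · simp [csw, hp]

theorem cs_disc {z : ℝ} (hz : 3 ≤ z) {a D d n m : ℕ} (ha : (a : ℝ) ≤ 2 * z) (hd : (d : ℝ) ≤ z ^ m)
    (h : D ≤ (4 * (-a : ℤ).natAbs) ^ n * d ^ 2) : (D : ℝ) ≤ z ^ (3 * n + m * 2) := by
  rw [Int.natAbs_neg, Int.natAbs_natCast] at h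
  have h1 : (D : ℝ) ≤ (4 * a) ^ n * d ^ 2 := by exact_mod_cast h
  have h2 : (4 * a : ℝ) ≤ z ^ 3 := by nlinarith [mul_le_mul hz hz (by norm_num) (by linarith)]
  rw [pow_add, pow_mul, pow_mul]
  exact h1.trans (by gcongr)

theorem psm_lower (h : P016.Pit) {n : ℕ} (hn : Odd n) : ∃ C : ℝ, ∀ (K : Type) [Field K]
    [NumberField K], Module.finrank ℚ K = n → Nonempty (K →+* ℝ) → ∀ z : ℝ, 3 ≤ z →
      ((NumberField.discr K).natAbs : ℝ) ≤ z →
        c1 * z - C * z / Real.log z ≤ psm (fun p => aF K p) z := by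
  obtain ⟨C, hC, hF⟩ := cs_field h (12 * n + 4)
  refine ⟨c1 + 4 * C, fun K _ _ hK ⟨τ⟩ z hz hd => ?_⟩
  have hz0 : 0 < z := by linarith
  have hl : 1 ≤ Real.log z := by
    rw [Real.le_log_iff_exp_le hz0]
    linarith [Real.exp_one_lt_d9]
  obtain ⟨S, hS, hSp⟩ := cs_primes ⌈Real.log z⌉₊
  have hk1 : Real.log z ≤ S.card := hS ▸ Nat.le_ceil _
  have hk2 : (S.card : ℝ) ≤ Real.log z + 1 := hS ▸ (Nat.ceil_lt_add_one (by linarith)).le
  have hS2 : ∀ a ∈ S, (a : ℝ) ≤ 2 * z := fun a ha => by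
    have h1 : (a : ℝ) ≤ 2 ^ (S.card : ℝ) := by
      rw [hS]
      exact_mod_cast (hSp a ha).2
    refine h1.trans ((Real.rpow_le_rpow_of_exponent_le one_le_two hk2).trans ?_)
    rw [Real.rpow_add two_pos, Real.rpow_one, mul_comm]
    refine mul_le_mul_of_nonneg_left ?_ zero_le_two
    conv_rhs => rw [← Real.exp_log hz0, ← Real.exp_one_rpow]
    exact Real.rpow_le_rpow zero_le_two (by linarith [Real.exp_one_gt_d9]) (by linarith)
  have hB : ∀ p ∈ insert 2 S, p.Prime ∧ (p : ℝ) ≤ z ^ 2 := fun p hp => by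
    rcases Finset.mem_insert.1 hp with rfl | hp
    · exact ⟨Nat.prime_two, by push_cast; nlinarith⟩
    · exact ⟨(hSp p hp).1, by nlinarith [hS2 p hp]⟩
  have hBc : ((insert 2 S).card : ℝ) ≤ 3 * Real.log z := by
    have h1 : ((insert 2 S).card : ℝ) ≤ S.card + 1 := by exact_mod_cast Finset.card_insert_le 2 S
    linarith
  have hW : ∀ p, 0 ≤ aF K p * csw z p := fun p => mul_nonneg (Nat.cast_nonneg _) (csw_nonneg z p)
  have hW1 : ∀ p, 0 ≤ if p ∈ insert 2 S then 0 else aF K p * csw z p := fun p => by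
    split_ifs
    exacts [le_rfl, hW p]
  have hW2 : ∀ p, (if p ∈ insert 2 S then 0 else aF K p * csw z p) ≤ aF K p * csw z p := fun p => by
    split_ifs
    exacts [hW p, le_rfl]
  have hsum := Summable.of_nonneg_of_le hW1 hW2 (cs_summable K hz0)
  have hz1 : 1 ≤ z := by linarith
  have hne : S.Nonempty := Finset.card_pos.1 (by exact_mod_cast (by linarith : (0 : ℝ) < S.card))
  have key := cs_pos hW1 hsum hne
    (f := fun a p => 1 + jacobiSym (-a) p) (fun a p => cs_jac _ p) (c := c1 * z)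
    (E := C * z / Real.log z) (by positivity) (fun a ha => ?_) fun a ha b hb hab => ?_
  · have h1 : c1 * z / S.card ≤ c1 * z / Real.log z :=
      div_le_div_of_nonneg_left (by unfold c1; positivity) (by linarith) hk1
    have h2 := hsum.tsum_le_tsum hW2 (cs_summable K hz0)
    have h3 : (c1 + 4 * C) * z / Real.log z = c1 * z / Real.log z + 4 * (C * z / Real.log z) := by
      ring
    simp only [psm, cs_ite]
    linarith
  · obtain ⟨E, _, _, ι, θ, hθ, -, hr, hD, hm⟩ := exists_quad K (cs_nsq τ (hSp a ha).1.pos)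
    simp only [← cs_mul (hSp a ha).1 (Finset.mem_insert_self 2 S) (Finset.mem_insert_of_mem ha) hm]
    exact hF E (cs_om (hSp a ha).1.pos hθ) z hz (by omega)
      ((cs_disc hz (hS2 a ha) (hd.trans_eq (pow_one z).symm) hD).trans
        (pow_le_pow_right₀ hz1 (by omega))) _ hB hBc
  · obtain ⟨E, _, _, ι, θ, hθ, hs, hr, hD, hm⟩ := exists_quad K (cs_nsq τ (hSp a ha).1.pos)
    obtain ⟨E', _, _, ι', θ', hθ', -, hr', hD', hm'⟩ :=
      exists_quad E (cs_nsq₂ τ (hK ▸ hn) ι (hSp a ha).1 (hSp b hb).1 hab hθ hs)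
    simp only [← mul_assoc,
      ← cs_mul (hSp a ha).1 (Finset.mem_insert_self 2 S) (Finset.mem_insert_of_mem ha) hm,
      ← cs_mul (hSp b hb).1 (Finset.mem_insert_self 2 S) (Finset.mem_insert_of_mem hb) hm']
    have h1 := hF E' (cs_om (hSp b hb).1.pos hθ') z hz (by omega)
      ((cs_disc hz (hS2 b hb) (cs_disc hz (hS2 a ha) (hd.trans_eq (pow_one z).symm) hD) hD').trans
        (pow_le_pow_right₀ hz1 (by omega))) _ hB hBc
    linarith [(abs_le.1 h1).2]

end Vale.Agent.P007A
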