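import Vale.Agent.P007A.Win
import Vale.Agent.P007A.Ex
import Vale.Agent.P007A.Haar
import Vale.Agent.P016.Pit
import Vale.Agent.P016.MobF

/-! The arithmetic part: interface. -/

namespace Vale.Agent.P007A

open Vale.Agent.P007 Matrix MeasureTheory Filter Topology NumberField
open scoped ENNReal nonZeroDivisors Classical

variable {K : Type} [Field K] [NumberField K] {n m : ℕ}

theorem pm_prob {o : Order K (m + 1)} {s : Fin (m + 1) ≃ (K →+* ℝ)} {μ : Measure (X (m + 1))}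
    (h : IsPacketMeasure o s μ) : IsProbabilityMeasure μ := (unfold h).1

theorem pm_inv {o : Order K (m + 1)} {s : Fin (m + 1) ≃ (K →+* ℝ)} {μ : Measure (X (m + 1))}
    (h : IsPacketMeasure o s μ) (u : Fin m → ℝ) : μ.map (act (tor u)) = μ := (unfold h).2.1 u

theorem sl_bd (m : ℕ) (hm : Even m) (R : ℝ) : ∃ C : ℝ, ∀ (K : ℕ → Type)
    [∀ i, Field (K i)] [∀ i, NumberField (K i)] (o : ∀ i, Order (K i) (m + 1))
    (s : ∀ i, Fin (m + 1) ≃ (K i →+* ℝ)) (μ : ℕ → Measure (X (m + 1))),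
    (∀ i, IsPacketMeasure (o i) (s i) (μ i)) → Tendsto (fun i => |(o i).disc|) atTop atTop →
    ∀ c η : ℝ, 0 ≤ c → 0 < η → η ≤ 1 →
      ∀ᶠ i in atTop, μ i (Sl (m + 1) R c η) ≤ ENNReal.ofReal (C * √η) :=
  sl_of_pit (P016.pit P016.mob) hm R

end Vale.Agent.P007A
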