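import Vale.Agent.P007A.Defs
import Vale.Agent.Lib.Mertens
import Vale.Agent.P016.PitA

/-! From smoothed prime sums to a lower bound of Mertens type. -/

namespace Vale.Agent.P007A

open Vale.Agent.P007 Matrix MeasureTheory Filter Topology NumberField
open scoped ENNReal nonZeroDivisors Classical

/-- Shifted Gaussian. -/
noncomputable def mertG (b s : ℝ) : ℝ := Real.exp (b * s - s ^ 2)

theorem mertG_eq (b l t : ℝ) :
    mertG b (l - t) = Real.exp (b ^ 2 / 4) * Real.exp (-1 * (t - (l - b / 2)) ^ 2) := by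
  rw [mertG, ← Real.exp_add]
  congr 1
  ring

theorem mertG_integrable (b l : ℝ) : Integrable fun t => mertG b (l - t) := by
  simp only [mertG_eq]
  exact ((integrable_exp_neg_mul_sq (b := 1) one_pos).comp_sub_right (l - b / 2)).const_mul _

theorem mertG_integral (b l : ℝ) : ∫ t, mertG b (l - t) = √Real.pi * Real.exp (b ^ 2 / 4) := by
  simp only [mertG_eq]
  rw [integral_const_mul, integral_sub_right_eq_self (fun t => Real.exp (-1 * t ^ 2)),
    integral_gaussian, div_one, mul_comm]

/-- The majorant. -/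
noncomputable def mertH (l t : ℝ) : ℝ :=
  mertG 1 (l - t) + 5 / l * (mertG 2 (l - t) + mertG 0 (l - t))

theorem mertH_nonneg {l : ℝ} (hl : 0 ≤ l) (t : ℝ) : 0 ≤ mertH l t := by
  unfold mertH mertG
  positivity

theorem mertH_integrable (l : ℝ) : Integrable (mertH l) :=
  (mertG_integrable 1 l).add (((mertG_integrable 2 l).add (mertG_integrable 0 l)).const_mul _)

theorem mertH_integral (l : ℝ) :
    ∫ t, mertH l t = c1 + 5 * (√Real.pi * (Real.exp 1 + 1)) / l := by
  unfold mertH
  have i2 : Integrable fun t => 5 / l * (mertG 2 (l - t) + mertG 0 (l - t)) :=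
    ((mertG_integrable 2 l).add (mertG_integrable 0 l)).const_mul _
  rw [integral_add (mertG_integrable 1 l) i2, integral_const_mul,
    integral_add (mertG_integrable 2 l) (mertG_integrable 0 l), mertG_integral, mertG_integral,
    mertG_integral, c1]
  norm_num
  ring

theorem mert_cosh (s : ℝ) : 1 + s ^ 2 ≤ Real.exp s + Real.exp (-s) := by
  have h : ∀ u : ℝ, 0 ≤ u → 1 + u ^ 2 ≤ Real.exp u + Real.exp (-u) := fun u hu => by
    have h1 := Real.quadratic_le_exp_of_nonneg hu
    have h2 := Real.sum_le_exp_of_nonneg hu 5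
    have h3 := Real.add_one_le_exp (-u)
    simp only [Finset.sum_range_succ, Finset.range_zero, Finset.sum_empty, Nat.factorial] at h2
    norm_num at h2
    nlinarith [sq_nonneg (u ^ 2 - 6), pow_nonneg hu 3]
  rcases le_total 0 s with h0 | h0
  · exact h s h0
  · have := h (-s) (by linarith)
    rw [neg_neg, neg_sq] at this
    linarith

theorem mert_ratio {l t : ℝ} (hl : 0 < l) (ht : 1 ≤ t) :
    l / t ≤ 1 + 5 / l * (Real.exp (l - t) + Real.exp (-(l - t))) := by
  have h1 := mert_cosh (l - t)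
  have h2 : l / t ≤ 1 + 5 / l * (1 + (l - t) ^ 2) := by
    have ht0 : 0 < t := by linarith
    rw [div_le_iff₀ ht0, ← sub_nonneg]
    have e : (1 + 5 / l * (1 + (l - t) ^ 2)) * t - l =
        (5 * t * (1 + (l - t) ^ 2) - l * (l - t)) / l := by
      field_simp
      ring
    rw [e]
    refine div_nonneg ?_ hl.le
    rcases le_total l (2 * t) with h | h
    · rcases le_total l t with h' | h'
      · nlinarith [mul_nonneg hl.le (sub_nonneg.2 h'), mul_nonneg ht0.le (sq_nonneg (l - t))]
      · nlinarith [mul_nonneg (sub_nonneg.2 h) (sub_nonneg.2 h'),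
          mul_nonneg ht0.le (sq_nonneg (l - t - 1)), mul_nonneg ht0.le (sq_nonneg (l - t))]
    · have h3 : 0 ≤ l - t := by linarith
      nlinarith [mul_nonneg (sub_nonneg.2 ht) (sq_nonneg (l - t)),
        mul_nonneg (sub_nonneg.2 h) h3, sq_nonneg (l - t)]
  have h3 : 0 ≤ 5 / l := by positivity
  nlinarith [mul_le_mul_of_nonneg_left h1 h3]

theorem mert_gw {p : ℝ} (hp : 0 < p) (t : ℝ) :
    gw (p / Real.exp t) = Real.exp (-(Real.log p - t) ^ 2) := by
  rw [gw, Real.log_div hp.ne' (Real.exp_pos t).ne', Real.log_exp]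

/-- The main range. -/
theorem mert_in {p t : ℝ} (hp : 1 < p) (ht : 1 ≤ t) :
    Real.log p * gw (p / Real.exp t) ≤ Real.exp t * t * (mertH (Real.log p) t / p) := by
  have hp0 : 0 < p := by linarith
  have hl := Real.log_pos hp
  have ht0 : 0 < t := by linarith
  rw [mert_gw hp0]
  have hpe : p = Real.exp (Real.log p) := (Real.exp_log hp0).symm
  generalize Real.log p = l at *
  have h1 := mert_ratio hl ht
  have e : Real.exp t * t * (mertH l t / p) =
      (1 + 5 / l * (Real.exp (l - t) + Real.exp (-(l - t)))) * t * Real.exp (-(l - t) ^ 2) := by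
    have a1 : mertG 1 (l - t) = Real.exp (l - t) * Real.exp (-(l - t) ^ 2) := by
      rw [mertG, ← Real.exp_add]; congr 1; ring
    have a2 : mertG 2 (l - t) =
        Real.exp (l - t) * Real.exp (l - t) * Real.exp (-(l - t) ^ 2) := by
      rw [mertG, ← Real.exp_add, ← Real.exp_add]; congr 1; ring
    have a0 : mertG 0 (l - t) = Real.exp (-(l - t) ^ 2) := by
      rw [mertG]; congr 1; ring
    rw [mertH, a1, a2, a0, hpe, Real.exp_neg (l - t), Real.exp_sub]
    have := Real.exp_pos l
    have := Real.exp_pos t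
    field_simp
  rw [e]
  refine mul_le_mul_of_nonneg_right ?_ (Real.exp_pos _).le
  exact (div_le_iff₀ ht0).1 h1

/-- The two outer ranges. -/
theorem mert_out {p t : ℝ} (hp : 1 < p)
    (h : 2 * Real.log p ≤ t ∨ 2 * t ≤ Real.log p) :
    Real.log p * gw (p / Real.exp t) ≤ Real.exp 9 * (1 / p ^ 2) := by
  have hp0 : 0 < p := by linarith
  have hl := Real.log_pos hp
  rw [mert_gw hp0]
  have hpe : p = Real.exp (Real.log p) := (Real.exp_log hp0).symm
  generalize Real.log p = l at *
  have h1 : Real.exp (-(l - t) ^ 2) ≤ Real.exp (9 - 3 * l) := by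
    refine Real.exp_le_exp.2 ?_
    rcases h with h | h
    · nlinarith [sq_nonneg (l - t + 3)]
    · nlinarith [sq_nonneg (l - t - 3)]
  have h2 : l ≤ Real.exp l := by linarith [Real.add_one_le_exp l]
  calc l * Real.exp (-(l - t) ^ 2) ≤ Real.exp l * Real.exp (9 - 3 * l) :=
        mul_le_mul h2 h1 (Real.exp_pos _).le (Real.exp_pos _).le
    _ = Real.exp 9 * (1 / p ^ 2) := by
        rw [hpe, ← Real.exp_nat_mul, one_div, ← Real.exp_neg, ← Real.exp_add, ← Real.exp_add]
        congr 1
        push_cast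
        ring

/-- Pointwise bound of the smoothed sum. -/
theorem mert_psm {N y Y t : ℝ} {a : ℕ → ℝ} (hy : 3 ≤ y) (hyY : y ≤ Y)
    (ha : ∀ p : ℕ, p.Prime → 0 ≤ a p ∧ a p ≤ N) (ht : 1 ≤ t) (h1 : 2 * Real.log y ≤ t)
    (h2 : 2 * t ≤ Real.log Y) :
    psm a (Real.exp t) ≤ Real.exp t * t * ∑ p ∈ (Finset.Ioc ⌊y⌋₊ ⌊Y⌋₊).filter Nat.Prime,
      a p / p * mertH (Real.log p) t + N * Real.exp 9 * ∑' p : ℕ, 1 / (p : ℝ) ^ 2 := by
  set S := (Finset.Ioc ⌊y⌋₊ ⌊Y⌋₊).filter Nat.Prime with hS
  have hN : 0 ≤ N := (ha 2 Nat.prime_two).1.trans (ha 2 Nat.prime_two).2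
  have s1 : HasSum (fun p : ℕ => if p ∈ S then
      Real.exp t * t * (a p / p * mertH (Real.log p) t) else 0)
      (Real.exp t * t * ∑ p ∈ S, a p / p * mertH (Real.log p) t) := by
    rw [Finset.mul_sum]
    have := hasSum_sum_of_ne_finset_zero (L := SummationFilter.unconditional ℕ) (s := S)
      (f := fun p : ℕ => if p ∈ S then
      Real.exp t * t * (a p / p * mertH (Real.log p) t) else 0) (fun p hp => if_neg hp)
    rwa [Finset.sum_congr rfl fun p hp => if_pos hp] at this
  have s2 : HasSum (fun p : ℕ => N * Real.exp 9 * (1 / (p : ℝ) ^ 2))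
      (N * Real.exp 9 * ∑' p : ℕ, 1 / (p : ℝ) ^ 2) :=
    (Real.summable_one_div_nat_pow.2 one_lt_two).hasSum.mul_left _
  have s3 := s1.add s2
  have hg : ∀ u, 0 ≤ gw u := fun u => (Real.exp_pos _).le
  have b0 : ∀ p : ℕ, 0 ≤ (if p.Prime then a p * Real.log p * gw (p / Real.exp t) else 0) :=
    fun p => by
      split_ifs with hp
      · exact mul_nonneg (mul_nonneg (ha p hp).1 (Real.log_natCast_nonneg p)) (hg _)
      · exact le_rfl
  have b1 : ∀ p : ℕ, (if p.Prime then a p * Real.log p * gw (p / Real.exp t) else 0) ≤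
      (if p ∈ S then Real.exp t * t * (a p / p * mertH (Real.log p) t) else 0) +
        N * Real.exp 9 * (1 / (p : ℝ) ^ 2) := fun p => by
    have c0 : 0 ≤ N * Real.exp 9 * (1 / (p : ℝ) ^ 2) := by positivity
    by_cases hp : p.Prime
    · have hp1 : (1 : ℝ) < p := by exact_mod_cast hp.one_lt
      rw [if_pos hp]
      by_cases hpS : p ∈ S
      · rw [if_pos hpS]
        have := mul_le_mul_of_nonneg_left (mert_in hp1 ht) (ha p hp).1
        have e : a p * (Real.exp t * t * (mertH (Real.log p) t / p)) =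
            Real.exp t * t * (a p / p * mertH (Real.log p) t) := by ring
        rw [e, ← mul_assoc] at this
        linarith
      · rw [if_neg hpS, zero_add, mul_assoc, mul_assoc]
        refine mul_le_mul (ha p hp).2 (mert_out hp1 ?_)
          (mul_nonneg (Real.log_natCast_nonneg p) (hg _)) hN
        simp only [hS, Finset.mem_filter, Finset.mem_Ioc, hp, and_true, not_and_or, not_lt,
          not_le] at hpS
        rcases hpS with h | h
        · left
          have : (p : ℝ) ≤ y := (Nat.le_floor_iff (by linarith)).1 h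
          have := Real.log_le_log (by linarith) this
          linarith
        · right
          have : Y < p := (Nat.floor_lt (by linarith)).1 h
          have := Real.log_le_log (by linarith) this.le
          linarith
    · have hpS : p ∉ S := fun h => hp (Finset.mem_filter.1 h).2
      rw [if_neg hp, if_neg hpS, zero_add]
      exact c0
  rw [psm, ← s3.tsum_eq]
  exact (s3.summable.of_nonneg_of_le b0 b1).tsum_le_tsum b1 s3.summable

theorem mert_inv_log : ∃ C : ℝ, 0 ≤ C ∧ ∀ y Y : ℝ, 3 ≤ y → y ≤ Y →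
    ∑ p ∈ (Finset.Ioc ⌊y⌋₊ ⌊Y⌋₊).filter Nat.Prime, (Real.log p)⁻¹ / p ≤ C := by
  obtain ⟨C, hC0, hC⟩ := Lib.Mertens.prime_sum_approx
  refine ⟨C + 1, by positivity, fun y Y hy hyY => ?_⟩
  have l3 : ∀ t : ℝ, 3 ≤ t → 1 ≤ Real.log t := fun t ht => by
    rw [Real.le_log_iff_exp_le (by linarith)]
    linarith [Real.exp_one_lt_d9]
  have h := hC y Y 1 (fun t => (Real.log t)⁻¹) (fun t => -(t⁻¹) / Real.log t ^ 2) (by linarith) hyY
    (fun t ht => (Real.hasDerivAt_log (by linarith [ht.1])).inv
      (by linarith [l3 t (hy.trans ht.1)]))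
    (fun t ht => by
      have h1 : t ≠ 0 := by linarith [ht.1]
      have h2 : Real.log t ≠ 0 := by linarith [l3 t (hy.trans ht.1)]
      exact (((continuousAt_id.inv₀ h1).neg).div ((Real.continuousAt_log h1).pow 2)
        (pow_ne_zero 2 h2)).continuousWithinAt)
    (fun t ht => by
      have h2 := l3 t (hy.trans ht.1)
      rw [abs_of_nonneg (by positivity)]
      exact inv_le_one_of_one_le₀ h2)
    (fun t ht => by
      have h1 : 0 < t := by linarith [ht.1]
      have h2 := l3 t (hy.trans ht.1)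
      rw [neg_div, abs_neg, abs_of_nonneg (by positivity), div_le_div_iff₀ (by positivity)
        (by positivity)]
      have : t⁻¹ * (t * Real.log t) = Real.log t := by field_simp
      rw [this]
      nlinarith)
  have e : ∫ t in y..Y, (Real.log t)⁻¹ / (t * Real.log t) = 1 / Real.log y - 1 / Real.log Y := by
    rw [← Lib.Mertens.integral_inv_mul_log_sq (by linarith) hyY]
    refine intervalIntegral.integral_congr fun t _ => ?_
    simp only [div_eq_mul_inv, mul_inv, sq]
    ring
  rw [e] at h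
  have h1 := (abs_le.1 h).2
  have h2 := l3 y hy
  have h3 := l3 Y (hy.trans hyY)
  have h4 : 1 / Real.log y ≤ 1 := by rw [div_le_one (by linarith)]; exact h2
  have h5 : 0 ≤ 1 / Real.log Y := by positivity
  have h6 : C * 1 / Real.log y ≤ C := by
    rw [mul_one]
    exact div_le_self hC0 h2
  linarith

theorem mert_int {A B c K : ℝ} (hA : 1 ≤ A) (hAB : A ≤ B) (hK : 0 ≤ K) :
    c * (Real.log B - Real.log A) - K ≤ ∫ t in A..B, (c / t - K / t ^ 2) := by
  have hd : ∀ t ∈ Set.uIcc A B, HasDerivAt (fun t => c * Real.log t + K * t⁻¹)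
      (c / t - K / t ^ 2) t := fun t ht => by
    rw [Set.uIcc_of_le hAB] at ht
    have h0 : t ≠ 0 := by linarith [ht.1]
    have := ((Real.hasDerivAt_log h0).const_mul c).add ((hasDerivAt_inv h0).const_mul K)
    refine this.congr_deriv ?_
    simp only [div_eq_mul_inv]
    ring
  have hc : ContinuousOn (fun t : ℝ => c / t - K / t ^ 2) (Set.uIcc A B) := fun t ht => by
    rw [Set.uIcc_of_le hAB] at ht
    have h0 : t ≠ 0 := by linarith [ht.1]
    exact ((continuousAt_const.div continuousAt_id h0).sub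
      (continuousAt_const.div (continuousAt_id.pow 2) (pow_ne_zero 2 h0))).continuousWithinAt
  rw [intervalIntegral.integral_eq_sub_of_hasDerivAt hd hc.intervalIntegrable]
  have h1 : K * A⁻¹ ≤ K := mul_le_of_le_one_right hK (inv_le_one_of_one_le₀ hA)
  have h2 : 0 ≤ K * B⁻¹ := mul_nonneg hK (inv_nonneg.2 (by linarith))
  linarith

theorem mert (N C₁ : ℝ) : ∃ C₀ : ℝ, ∀ (a : ℕ → ℝ) (y : ℝ), 3 ≤ y →
    (∀ p : ℕ, p.Prime → 0 ≤ a p ∧ a p ≤ N) →
    (∀ z : ℝ, y ^ 2 ≤ z → c1 * z - C₁ * z / Real.log z ≤ psm a z) →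
    ∀ Y : ℝ, y ≤ Y → Real.log (Real.log Y) - Real.log (Real.log y) - C₀ ≤
      ∑ p ∈ (Finset.Ioc ⌊y⌋₊ ⌊Y⌋₊).filter Nat.Prime, a p / p := by
  obtain ⟨C, hC0, hC⟩ := mert_inv_log
  obtain ⟨Z, hZ⟩ : ∃ Z : ℝ, Z = ∑' p : ℕ, 1 / (p : ℝ) ^ 2 := ⟨_, rfl⟩
  have hZ0 : 0 ≤ Z := hZ ▸ tsum_nonneg fun p => by positivity
  obtain ⟨D, hD⟩ : ∃ D : ℝ, D = 5 * (√Real.pi * (Real.exp 1 + 1)) := ⟨_, rfl⟩
  have hD0 : 0 ≤ D := by rw [hD]; positivity
  obtain ⟨K, hK⟩ : ∃ K : ℝ, K = |C₁| + 2 * (|N| * Real.exp 9 * Z) := ⟨_, rfl⟩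
  have hK0 : 0 ≤ K := by rw [hK]; positivity
  have hc : 0 < c1 := by
    have := Real.pi_pos
    unfold c1
    positivity
  refine ⟨Real.log 4 + (K + D * |N| * C) / c1, fun a y hy ha hz Y hyY => ?_⟩
  have hN : 0 ≤ N := (ha 2 Nat.prime_two).1.trans (ha 2 Nat.prime_two).2
  rw [abs_of_nonneg hN] at hK ⊢
  set S := (Finset.Ioc ⌊y⌋₊ ⌊Y⌋₊).filter Nat.Prime with hS
  have hSp : ∀ p ∈ S, p.Prime := fun p hp => (Finset.mem_filter.1 hp).2
  have ha0 : ∀ p ∈ S, 0 ≤ a p / p := fun p hp => div_nonneg (ha p (hSp p hp)).1 p.cast_nonneg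
  have hL : 1 ≤ Real.log y := by
    rw [Real.le_log_iff_exp_le (by linarith)]
    linarith [Real.exp_one_lt_d9]
  have hLM : Real.log y ≤ Real.log Y := Real.log_le_log (by linarith) hyY
  have e4 : Real.log (Real.log Y / 2) - Real.log (2 * Real.log y) =
      Real.log (Real.log Y) - Real.log (Real.log y) - Real.log 4 := by
    rw [Real.log_div (by linarith) two_ne_zero, Real.log_mul two_ne_zero (by linarith),
      show (4 : ℝ) = 2 * 2 by norm_num, Real.log_mul two_ne_zero two_ne_zero]
    ring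
  have hq : 0 ≤ (K + D * N * C) / c1 := by positivity
  rcases le_total (Real.log Y / 2) (2 * Real.log y) with hAB | hAB
  · have h1 := Real.log_le_log (by linarith) hAB
    have h2 := Finset.sum_nonneg ha0
    linarith
  have h1 := mert_int (c := c1) (by linarith) hAB hK0
  have hi : Integrable fun t => ∑ p ∈ S, a p / p * mertH (Real.log p) t :=
    integrable_finsetSum _ fun p _ => (mertH_integrable _).const_mul _
  have h2 : ∫ t in (2 * Real.log y)..(Real.log Y / 2), (c1 / t - K / t ^ 2) ≤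
      ∫ t in (2 * Real.log y)..(Real.log Y / 2), ∑ p ∈ S, a p / p * mertH (Real.log p) t := by
    refine intervalIntegral.integral_mono_on hAB ?_ hi.intervalIntegrable fun t ht => ?_
    · refine ContinuousOn.intervalIntegrable fun t ht => ?_
      rw [Set.uIcc_of_le hAB] at ht
      have h0 : t ≠ 0 := by linarith [ht.1]
      exact ((continuousAt_const.div continuousAt_id h0).sub
        (continuousAt_const.div (continuousAt_id.pow 2) (pow_ne_zero 2 h0))).continuousWithinAt
    · have ht1 : 1 ≤ t := by linarith [ht.1]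
      have ht0 : 0 < t := by linarith
      have b1 := mert_psm hy hyY ha ht1 ht.1 (by linarith [ht.2])
      have b2 := hz (Real.exp t) (by
        rw [← Real.exp_log (show 0 < y ^ 2 by positivity), Real.log_pow]
        exact Real.exp_le_exp.2 (by push_cast; exact ht.1))
      rw [Real.log_exp] at b2
      rw [← hS, ← hZ] at b1
      have he := Real.exp_pos t
      have b3 : t ≤ 2 * Real.exp t := by linarith [Real.add_one_le_exp t]
      have b4 : 0 ≤ N * Real.exp 9 * Z := by positivity
      have b5 : C₁ * Real.exp t / t ≤ |C₁| * Real.exp t / t := by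
        gcongr
        exact le_abs_self _
      refine le_of_mul_le_mul_left ?_ (mul_pos he ht0)
      have e : Real.exp t * t * (c1 / t - K / t ^ 2) = c1 * Real.exp t - |C₁| * Real.exp t / t -
          N * Real.exp 9 * Z * (2 * Real.exp t / t) := by
        rw [hK]
        field_simp
        ring
      have b6 : 1 ≤ 2 * Real.exp t / t := by rw [le_div_iff₀ ht0]; linarith
      rw [e]
      nlinarith [mul_le_mul_of_nonneg_left b6 b4]
  have h3 : ∫ t in (2 * Real.log y)..(Real.log Y / 2), ∑ p ∈ S, a p / p * mertH (Real.log p) t ≤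
      ∫ t, ∑ p ∈ S, a p / p * mertH (Real.log p) t := by
    rw [intervalIntegral.integral_of_le hAB]
    refine setIntegral_le_integral hi (Eventually.of_forall fun t => ?_)
    exact Finset.sum_nonneg fun p hp => mul_nonneg (ha0 p hp)
      (mertH_nonneg (Real.log_natCast_nonneg p) t)
  have h4 : ∫ t, ∑ p ∈ S, a p / p * mertH (Real.log p) t ≤
      c1 * ∑ p ∈ S, a p / p + D * N * ∑ p ∈ S, (Real.log p)⁻¹ / p := by
    rw [integral_finsetSum _ fun p _ => (mertH_integrable _).const_mul _, Finset.mul_sum,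
      Finset.mul_sum, ← Finset.sum_add_distrib]
    refine Finset.sum_le_sum fun p hp => ?_
    rw [integral_const_mul, mertH_integral, ← hD]
    have l0 := Real.log_natCast_nonneg p
    have : a p * (D * ((Real.log p)⁻¹ / p)) ≤ N * (D * ((Real.log p)⁻¹ / p)) :=
      mul_le_mul_of_nonneg_right (ha p (hSp p hp)).2 (by positivity)
    simp only [div_eq_mul_inv] at this ⊢
    nlinarith
  have h5 := mul_le_mul_of_nonneg_left (hC y Y hy hyY) (mul_nonneg hD0 hN)
  rw [← hS] at h5
  rw [e4] at h1
  have h6 : Real.log (Real.log Y) - Real.log (Real.log y) - Real.log 4 - ∑ p ∈ S, a p / p ≤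
      (K + D * N * C) / c1 := by
    rw [le_div_iff₀ hc]
    nlinarith
  linarith

end Vale.Agent.P007A
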