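import Vale.Agent.P007A.Main

/-! No escape of mass for packets in odd degree. -/

namespace Vale.Agent.P007A

open Vale.Agent.P007 MeasureTheory Filter Topology

theorem tight (m : ℕ) (hm : Even m) (K : ℕ → Type) [∀ i, Field (K i)] [∀ i, NumberField (K i)]
    (o : ∀ i, Order (K i) (m + 1)) (s : ∀ i, Fin (m + 1) ≃ (K i →+* ℝ))
    (μ : ℕ → Measure (X (m + 1))) (hμ : ∀ i, IsPacketMeasure (o i) (s i) (μ i))
    (hd : Tendsto (fun i => |(o i).disc|) atTop atTop) {ε : ℝ} (hε : 0 < ε) :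
    ∃ C : Set (X (m + 1)), IsCompact C ∧ ∀ᶠ i in atTop, μ i Cᶜ ≤ ENNReal.ofReal ε := by
  obtain ⟨C, hC⟩ := sl_bd m hm 1
  set η : ℝ := min 1 ((ε / (|C| + 1)) ^ 2) with hη
  have h0 : 0 < η := lt_min one_pos (by positivity)
  have h1 : η ≤ 1 := min_le_left _ _
  refine ⟨_, mahler (m + 1) η h0, (hC K o s μ hμ hd 0 η le_rfl h0 h1).mono fun i hi => ?_⟩
  refine le_trans (measure_mono fun x hx => ?_) (hi.trans (ENNReal.ofReal_le_ofReal ?_))
  · simp only [Set.mem_compl_iff, Set.mem_ofPred_eq, not_forall, not_exists, not_le] at hx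
    obtain ⟨v, hv, hv0, h⟩ := hx
    refine ⟨v, hv, hv0, fun j => (h j).trans_le h1, ?_⟩
    rw [sub_zero, abs_abs, Finset.abs_prod, Fin.prod_univ_succ]
    have : ∏ j : Fin m, |v j.succ| ≤ 1 :=
      Finset.prod_le_one (fun j _ => abs_nonneg _) fun j _ => ((h _).trans_le h1).le
    exact (mul_le_of_le_one_right (abs_nonneg _) this).trans_lt (h 0)
  · have a : √η ≤ ε / (|C| + 1) := Real.sqrt_le_iff.2 ⟨by positivity, min_le_right _ _⟩
    calc C * √η ≤ (|C| + 1) * √η := by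
          gcongr
          linarith [le_abs_self C]
      _ ≤ (|C| + 1) * (ε / (|C| + 1)) := by gcongr
      _ = ε := by field_simp

theorem tight' (m : ℕ) (hm : Even m) (K : ℕ → Type) [∀ i, Field (K i)]
    [∀ i, NumberField (K i)] (o : ∀ i, Order (K i) (m + 1)) (s : ∀ i, Fin (m + 1) ≃ (K i →+* ℝ))
    (μ : ℕ → Measure (X (m + 1))) (hμ : ∀ i, IsPacketMeasure (o i) (s i) (μ i))
    (hd : Tendsto (fun i => |(o i).disc|) atTop atTop) {ε : ℝ} (hε : 0 < ε) :
    ∃ C : Set (X (m + 1)), IsCompact C ∧ ∀ᶠ i in atTop, ENNReal.ofReal (1 - ε) ≤ μ i C := by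
  obtain ⟨C, hC, h⟩ := tight m hm K o s μ hμ hd hε
  refine ⟨C, hC, h.mono fun i hi => ?_⟩
  have := pm_prob (hμ i)
  rw [ENNReal.ofReal_sub _ hε.le, ENNReal.ofReal_one, tsub_le_iff_right,
    ← prob_add_prob_compl (μ := μ i) hC.measurableSet]
  gcongr

end Vale.Agent.P007A
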