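import Vale.Agent.P007A.Dens
import Vale.Agent.P007A.PP
import Vale.Agent.P007A.HT
import Vale.Agent.P007A.Kap
import Vale.Agent.P007A.Mert
import Vale.Agent.P007A.CS
import Vale.Agent.P007B.Sl

/-! Bounds for Siegel transforms on packets of large discriminant. -/

namespace Vale.Agent.P007A

open Vale.Agent.P007 Matrix MeasureTheory Filter Topology NumberField
open scoped ENNReal nonZeroDivisors Classical

variable {n m : ℕ}

theorem lm_le (h : P016.Pit) (hm : Even m) : ∃ C : ℝ, 0 < C ∧ ∀ (K : Type) [Field K]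
    [NumberField K] (o : Order K (m + 1)) (σ : Fin (m + 1) ≃ (K →+* ℝ))
    (μ : Measure (X (m + 1))) (V : ℝ), IsPacketMeasure o σ μ → Unf o μ V →
      ∀ y : ℝ, 3 ≤ y → rtD o ≤ y →
        lm (fun k => (rO o k : ℝ)) y ≤ C * (V / rtD o) * Real.log y := by
  obtain ⟨C₁, h₁⟩ := psm_lower h hm.add_one
  obtain ⟨C₀, h₀⟩ := mert ((m + 1 : ℕ) : ℝ) C₁
  obtain ⟨C₂, hC₂, h₂⟩ := kap (m + 1) C₀
  obtain ⟨C₃, hC₃, h₃⟩ := dens m
  refine ⟨C₂ * C₃, by positivity, fun K _ _ o σ μ V hμ hV y hy hxy => ?_⟩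
  obtain ⟨f, hf1, hf2, hf3, hf4⟩ := exists_cond o
  have ha : ∀ p : ℕ, p.Prime → (0 : ℝ) ≤ aF K p ∧ (aF K p : ℝ) ≤ (m + 1 : ℕ) := fun p hp =>
    ⟨Nat.cast_nonneg _, by exact_mod_cast (aF_le K hp).trans (finrank_K o).le⟩
  have hx := one_le_rtD o
  have := h₂ _ _ (fun p => (aF K p : ℝ)) y _ (adm o) (by linarith) (fun p hp hyp =>
    ⟨(ha p hp).1, by
      refine Nat.cast_le.2 (aF_le_rO o hf4 hp fun hd => ?_)
      have : (p : ℝ) ≤ f := by exact_mod_cast Nat.le_of_dvd hf1 hd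
      linarith, (ha p hp).2⟩)
    (h₀ _ y hy ha fun z hz => h₁ K (finrank_K o) ⟨σ 0⟩ z (by nlinarith) (by nlinarith))
    (h₃ K o σ μ V hμ hV)
  linarith

theorem win_lm (h : P016.Pit) (hm : Even m) : ∃ C : ℝ, 0 < C ∧ ∀ c c' y₀ : ℝ, 0 < c → 0 < c' →
    ∃ D₀ : ℝ, ∀ (K : Type) [Field K] [NumberField K] (o : Order K (m + 1))
      (σ : Fin (m + 1) ≃ (K →+* ℝ)) (μ : Measure (X (m + 1))) (V : ℝ), IsPacketMeasure o σ μ →
      Unf o μ V → D₀ ≤ rtD o → y₀ ≤ c * rtD o ∧ 2 ≤ c * rtD o ∧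
        lm (fun k => (rO o k : ℝ)) (c' * rtD o) / Real.log (c * rtD o) ≤ C * (V / rtD o) := by
  obtain ⟨C, hC, hl⟩ := lm_le h hm
  refine ⟨2 * C, by positivity, fun c c' y₀ hc hc' => ?_⟩
  refine ⟨max (max 3 ((c' + 1) / c ^ 2)) (max y₀ 2 / c), fun K _ _ o σ μ V hμ hV hD => ?_⟩
  simp only [max_le_iff] at hD
  obtain ⟨⟨h3, h4⟩, h5⟩ := hD
  rw [div_le_iff₀' hc, max_le_iff] at h5
  rw [div_le_iff₀ (by positivity)] at h4
  refine ⟨h5.1, h5.2, ?_⟩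
  have hx : 0 < rtD o := by linarith
  have h6 := hl K o σ μ V hμ hV ((c' + 1) * rtD o) (by nlinarith) (by nlinarith)
  have h7 : lm (fun k => (rO o k : ℝ)) (c' * rtD o) ≤
      lm (fun k => (rO o k : ℝ)) ((c' + 1) * rtD o) :=
    Finset.sum_le_sum_of_subset_of_nonneg
      (Finset.Icc_subset_Icc_right (Nat.floor_le_floor (by nlinarith))) fun k _ _ => by positivity
  have h8 : Real.log ((c' + 1) * rtD o) ≤ 2 * Real.log (c * rtD o) := by
    have := Real.log_le_log (by positivity)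
      (show (c' + 1) * rtD o ≤ (c * rtD o) ^ 2 by nlinarith)
    rwa [Real.log_pow, Nat.cast_ofNat] at this
  rw [div_le_iff₀ (Real.log_pos (by linarith))]
  have h9 := mul_le_mul_of_nonneg_left h8 (mul_pos hC (div_pos hV.1 hx)).le
  linarith

theorem win_gen {K : Type} [Field K] [NumberField K] {o : Order K (m + 1)}
    {μ : Measure (X (m + 1))} {V : ℝ} (hV : Unf o μ V) {B : Set (Fin (m + 1) → ℝ)}
    (hB : MeasurableSet B) (S : Finset ℕ) (g : ℕ → ℝ) (hg : ∀ k, 0 ≤ g k)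
    (h1 : ∀ k ∈ S, Phi (B.indicator 1) (k / rtD o) ≤ ENNReal.ofReal (g k))
    (h2 : ∀ k ∉ S, k ≠ 0 → Phi (B.indicator 1) (k / rtD o) = 0) {A : ℝ}
    (h3 : ∑ k ∈ S, (rO o k : ℝ) * g k ≤ A * V) : ∫⁻ x, cnt B x ∂μ ≤ ENNReal.ofReal A := by
  have h4 := hV.2 (B.indicator 1) (measurable_one.indicator hB)
  rw [tsum_eq_sum (s := S) fun k hk => by
    rcases eq_or_ne k 0 with rfl | h0
    · simp [rO_zero]
    · rw [h2 k hk h0, mul_zero]] at h4
  have h5 : ENNReal.ofReal V * ∫⁻ x, cnt B x ∂μ ≤ ENNReal.ofReal V * ENNReal.ofReal A := by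
    refine h4.le.trans ?_
    rw [← ENNReal.ofReal_mul hV.1.le, mul_comm V]
    refine le_trans ?_ (ENNReal.ofReal_le_ofReal h3)
    rw [ENNReal.ofReal_sum_of_nonneg fun k _ => mul_nonneg (Nat.cast_nonneg _) (hg k)]
    refine Finset.sum_le_sum fun k hk => ?_
    rw [ENNReal.ofReal_mul (Nat.cast_nonneg _), ENNReal.ofReal_natCast]
    exact mul_le_mul_right (h1 k hk) _
  exact (ENNReal.mul_le_mul_iff_right (ENNReal.ofReal_pos.2 hV.1).ne' ENNReal.ofReal_ne_top).1 h5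

theorem slab_bd (h : P016.Pit) (hm : Even m) : ∃ C : ℝ, 0 < C ∧ ∀ T ε : ℝ, 0 < T → 0 < ε →
    ∃ D₀ : ℝ, ∀ (K : Type) [Field K] [NumberField K] (o : Order K (m + 1))
      (σ : Fin (m + 1) ≃ (K →+* ℝ)) (μ : Measure (X (m + 1))), IsPacketMeasure o σ μ →
      D₀ ≤ rtD o →
        ∫⁻ x, cnt (slab T ε) x ∂μ ≤ ENNReal.ofReal (C * √(T ^ (m + 1) * ε)) := by
  obtain ⟨C₁, hC₁, h₁⟩ := Phi_slab m
  obtain ⟨C₂, hC₂, h₂⟩ := ht_long (n := m + 1) (by omega) ((m + 1 : ℕ) * (2 * (m + 1 : ℕ)) ^ (m + 1))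
  obtain ⟨C₃, hC₃, h₃⟩ := win_lm h hm
  refine ⟨C₁ * C₂ * C₃, by positivity, fun T ε hT hε => ?_⟩
  obtain ⟨D₀, hD₀⟩ := h₃ ε ε 0 hε hε
  refine ⟨D₀, fun K _ _ o σ μ hμ hD => ?_⟩
  obtain ⟨-, -, V, hV⟩ := unfold hμ
  obtain ⟨-, a2, a3⟩ := hD₀ K o σ μ V hμ hV hD
  have hx : 0 < rtD o := lt_of_lt_of_le one_pos (one_le_rtD o)
  refine win_gen hV (isOpen_slab T ε).measurableSet (Finset.Icc 1 ⌊ε * rtD o⌋₊)
    (fun k => C₁ * √(T ^ (m + 1) / (k / rtD o))) (fun k => by positivity) (fun k hk => ?_)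
    (fun k hk h0 => ?_) ?_
  · have k0 : (0 : ℝ) < k := by exact_mod_cast (Finset.mem_Icc.1 hk).1
    refine (h₁ T ε _ hT (div_pos k0 hx)).trans ?_
    split_ifs
    · exact le_rfl
    · exact zero_le
  · have k0 : (0 : ℝ) < k := by exact_mod_cast Nat.pos_of_ne_zero h0
    have k1 : ε * rtD o < k := by
      rw [← Nat.floor_lt (by positivity)]
      by_contra hc
      exact hk (Finset.mem_Icc.2 ⟨Nat.pos_of_ne_zero h0, not_lt.1 hc⟩)
    refine le_antisymm ((h₁ T ε _ hT (div_pos k0 hx)).trans ?_) zero_le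
    rw [if_neg (not_lt.2 ((le_div_iff₀ hx).2 k1.le))]
  · have b1 := h₂ _ (adm o) _ a2
    have b2 : ∑ k ∈ Finset.Icc 1 ⌊ε * rtD o⌋₊, (rO o k : ℝ) * (C₁ * √(T ^ (m + 1) / (k / rtD o))) =
        C₁ * √(T ^ (m + 1) * rtD o) * ∑ k ∈ Finset.Icc 1 ⌊ε * rtD o⌋₊, (rO o k : ℝ) / √k := by
      rw [Finset.mul_sum]
      refine Finset.sum_congr rfl fun k _ => ?_
      rw [div_div_eq_mul_div, Real.sqrt_div (by positivity)]
      ring
    have b3 : √(T ^ (m + 1) * rtD o) * √(ε * rtD o) = √(T ^ (m + 1) * ε) * rtD o := by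
      rw [← Real.sqrt_mul (by positivity), show T ^ (m + 1) * rtD o * (ε * rtD o) =
        T ^ (m + 1) * ε * rtD o ^ 2 by ring, Real.sqrt_mul (by positivity), Real.sqrt_sq hx.le]
    rw [mul_div_assoc] at b1
    rw [b2]
    calc _ ≤ C₁ * √(T ^ (m + 1) * rtD o) * (C₂ * √(ε * rtD o) * (C₃ * (V / rtD o))) :=
          mul_le_mul_of_nonneg_left (b1.trans (mul_le_mul_of_nonneg_left a3 (by positivity)))
            (by positivity)
      _ = C₁ * C₂ * C₃ * (√(T ^ (m + 1) * rtD o) * √(ε * rtD o)) * (V / rtD o) := by ring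
      _ = _ := by rw [b3]; field_simp

theorem win_meas (T a b : ℝ) : MeasurableSet
    {v : Fin n → ℝ | (∀ j, |v j| < T) ∧ a < ∏ j, |v j| ∧ ∏ j, |v j| < b} := by
  have h1 : IsOpen {v : Fin n → ℝ | a < ∏ j, |v j|} :=
    isOpen_lt continuous_const (by fun_prop)
  have h2 : {v : Fin n → ℝ | (∀ j, |v j| < T) ∧ a < ∏ j, |v j| ∧ ∏ j, |v j| < b} =
      slab T b ∩ {v | a < ∏ j, |v j|} := by
    ext v
    simp only [slab, Set.mem_ofPred_eq, Set.mem_inter_iff]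
    tauto
  rw [h2]
  exact ((isOpen_slab T b).inter h1).measurableSet

theorem win_bd (h : P016.Pit) (hm : Even m) : ∃ C : ℝ, 0 < C ∧ ∀ T a η : ℝ, 0 < T → 0 < a →
    0 < η → η ≤ 1 → ∃ D₀ : ℝ, ∀ (K : Type) [Field K] [NumberField K] (o : Order K (m + 1))
      (σ : Fin (m + 1) ≃ (K →+* ℝ)) (μ : Measure (X (m + 1))), IsPacketMeasure o σ μ →
      D₀ ≤ rtD o →
        ∫⁻ x, cnt {v | (∀ j, |v j| < T) ∧ a < ∏ j, |v j| ∧ ∏ j, |v j| < (1 + η) * a} x ∂μ ≤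
          ENNReal.ofReal (C * η * √(T ^ (m + 1) * a)) := by
  obtain ⟨C₁, hC₁, h₁⟩ := Phi_slab m
  obtain ⟨C₂, hC₂, h₂⟩ := ht_short (n := m + 1) (by omega)
    ((m + 1 : ℕ) * (2 * (m + 1 : ℕ)) ^ (m + 1))
  obtain ⟨C₃, hC₃, h₃⟩ := win_lm h hm
  refine ⟨C₁ * C₂ * C₃, by positivity, fun T a η hT ha hη hη1 => ?_⟩
  obtain ⟨y₀, hy₀⟩ := h₂ η hη hη1
  obtain ⟨D₀, hD₀⟩ := h₃ a (2 * a) y₀ ha (by positivity)
  refine ⟨D₀, fun K _ _ o σ μ hμ hD => ?_⟩
  obtain ⟨-, -, V, hV⟩ := unfold hμ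
  obtain ⟨a1, a2, a3⟩ := hD₀ K o σ μ V hμ hV hD
  have hx : 0 < rtD o := lt_of_lt_of_le one_pos (one_le_rtD o)
  refine win_gen hV (win_meas T a ((1 + η) * a)) (Finset.Ioc ⌊a * rtD o⌋₊ ⌊(1 + η) * (a * rtD o)⌋₊)
    (fun _ => C₁ * √(T ^ (m + 1) / a)) (fun k => by positivity) (fun k hk => ?_)
    (fun k hk _ => ?_) ?_
  · have k1 : a < k / rtD o :=
      (lt_div_iff₀ hx).2 ((Nat.floor_lt (by positivity)).1 (Finset.mem_Ioc.1 hk).1)
    refine (Phi_mono (f' := (slab T ((1 + η) * a)).indicator 1)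
      (Set.indicator_le_indicator_of_subset (fun v hv => ⟨hv.1, hv.2.2⟩) fun _ => zero_le)
      _).trans ((h₁ T _ _ hT (ha.trans k1)).trans ?_)
    split_ifs
    · refine ENNReal.ofReal_le_ofReal ?_
      gcongr
    · exact zero_le
  · refine Phi_eq_zero (by positivity) fun v hv he => hk ?_
    obtain ⟨-, b1, b2⟩ := hv
    rw [he, lt_div_iff₀ hx] at b1
    rw [he, div_lt_iff₀ hx, mul_assoc] at b2
    exact Finset.mem_Ioc.2 ⟨(Nat.floor_lt (by positivity)).2 b1, Nat.le_floor b2.le⟩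
  · have b1 := hy₀ _ (adm o) _ a1
    have b3 : √(T ^ (m + 1) / a) * a = √(T ^ (m + 1) * a) := by
      rw [show T ^ (m + 1) * a = T ^ (m + 1) / a * a ^ 2 by field_simp,
        Real.sqrt_mul (by positivity), Real.sqrt_sq ha.le]
    rw [mul_div_assoc, ← mul_assoc 2] at b1
    rw [← Finset.sum_mul]
    calc _ ≤ C₂ * η * (a * rtD o) * (C₃ * (V / rtD o)) * (C₁ * √(T ^ (m + 1) / a)) :=
          mul_le_mul_of_nonneg_right (b1.trans (mul_le_mul_of_nonneg_left a3 (by positivity)))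
            (by positivity)
      _ = C₁ * C₂ * C₃ * η * (√(T ^ (m + 1) / a) * a) * (rtD o * (V / rtD o)) := by ring
      _ = _ := by rw [b3]; field_simp

theorem sl_of_pit (h : P016.Pit) (hm : Even m) (R : ℝ) : ∃ C : ℝ, ∀ (K : ℕ → Type)
    [∀ i, Field (K i)] [∀ i, NumberField (K i)] (o : ∀ i, Order (K i) (m + 1))
    (s : ∀ i, Fin (m + 1) ≃ (K i →+* ℝ)) (μ : ℕ → Measure (X (m + 1))),
    (∀ i, IsPacketMeasure (o i) (s i) (μ i)) → Tendsto (fun i => |(o i).disc|) atTop atTop →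
    ∀ c η : ℝ, 0 ≤ c → 0 < η → η ≤ 1 →
      ∀ᶠ i in atTop, μ i (Sl (m + 1) R c η) ≤ ENNReal.ofReal (C * √η) := by
  obtain ⟨C₁, hC₁, h₁⟩ := slab_bd h hm
  obtain ⟨C₂, hC₂, h₂⟩ := win_bd h hm
  refine ⟨2 * C₁ * √(R ^ (m + 1)) + 2 * C₂ * √(R ^ (m + 1)),
    fun K _ _ o s μ hμ hd c η hc hη hη1 => ?_⟩
  rcases le_or_gt R 0 with hR | hR
  · refine Eventually.of_forall fun i => ?_
    have : Sl (m + 1) R c η = ∅ := Set.eq_empty_of_forall_notMem fun x ⟨v, _, _, hv, _⟩ =>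
      absurd ((abs_nonneg _).trans_lt (hv 0)) (not_lt.2 hR)
    simp [this]
  have hD : ∀ D₀ : ℝ, ∀ᶠ i in atTop, D₀ ≤ rtD (o i) := by
    intro D₀
    filter_upwards [hd.eventually_ge_atTop (⌈D₀ ^ 2⌉₊ : ℚ)] with i hi
    refine Real.le_sqrt_of_sq_le ((Nat.le_ceil _).trans ?_)
    exact_mod_cast hi
  rcases lt_or_ge c (3 * η) with hc3 | hc3
  · obtain ⟨D₀, hD₀⟩ := h₁ R (4 * η) hR (by positivity)
    filter_upwards [hD D₀] with i hi
    refine le_trans (measure_mono ?_) ((measure_le_cnt (μ i)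
      (isOpen_slab R (4 * η)).measurableSet).trans ((hD₀ _ _ _ _ (hμ i) hi).trans ?_))
    · rintro x ⟨v, h1, h2, h3, h4⟩
      refine ⟨v, h1, h2, h3, ?_⟩
      rw [Finset.abs_prod] at h4
      linarith [(abs_lt.1 h4).2]
    · refine ENNReal.ofReal_le_ofReal ?_
      rw [Real.sqrt_mul (by positivity), show 4 * η = 2 ^ 2 * η by ring,
        Real.sqrt_mul (by positivity), Real.sqrt_sq zero_le_two]
      have : 0 ≤ 2 * C₂ * √(R ^ (m + 1)) * √η := by positivity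
      linarith
  · have ha : 0 < c - η := by linarith
    obtain ⟨D₀, hD₀⟩ := h₂ R (c - η) (2 * η / (c - η)) hR ha (by positivity)
      ((div_le_one ha).2 (by linarith))
    filter_upwards [hD D₀] with i hi
    refine le_trans (measure_mono ?_) ((measure_le_cnt (μ i)
      (win_meas R (c - η) _)).trans ((hD₀ _ _ _ _ (hμ i) hi).trans ?_))
    · rintro x ⟨v, h1, h2, h3, h4⟩
      rw [Finset.abs_prod] at h4
      refine ⟨v, h1, h2, h3, by linarith [(abs_lt.1 h4).1], ?_⟩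
      rw [add_mul, div_mul_cancel₀ _ ha.ne']
      linarith [(abs_lt.1 h4).2]
    · refine ENNReal.ofReal_le_ofReal ?_
      have b1 : η / (c - η) * √(c - η) ≤ √η := by
        refine Real.le_sqrt_of_sq_le ?_
        rw [mul_pow, Real.sq_sqrt ha.le, div_pow, div_mul_eq_mul_div,
          div_le_iff₀ (by positivity)]
        nlinarith [mul_nonneg (mul_pos hη ha).le (show 0 ≤ c - η - η by linarith)]
      have b2 := mul_le_mul_of_nonneg_left b1 (by positivity : 0 ≤ 2 * C₂ * √(R ^ (m + 1)))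
      rw [Real.sqrt_mul (by positivity), mul_div_assoc]
      have : 0 ≤ 2 * C₁ * √(R ^ (m + 1)) * √η := by positivity
      linarith

end Vale.Agent.P007A
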